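import Vale.Agent.P281.H225.C.Ds

/-!
# P281, class C (helper225), block C3: the bounds
-/

open Set Filter Metric MeasureTheory Vale.Agent.P281 Vale.Agent.P281.H713 Vale.Agent.P272.K
open scoped Topology ContDiff Manifold ComplexConjugate

set_option linter.unusedSectionVars false

noncomputable section

namespace Vale.Agent.P281.H225.C

open Vale.Agent.P281.H64 (Mark Qf IsProperFibration functional_eq)
open Vale.Agent.P281.H64.TK Vale.Agent.P281.H603.K Vale.Agent.P281.H864.K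
open Vale.Agent.P281.H603.TE Vale.Agent.P281.H603.KodN Vale.Agent.P281.H603.C
open Vale.Agent.P281.H64.Gen (excSet IsSmall2 IsSmallSet)
open Vale.Agent.P281.H64.TU (Tame KTame TameIn NormStmt)

theorem ccs5 {E Γ : Type} [TopologicalSpace E] [Group Γ] [MulAction Γ E]
    [ContinuousConstSMul Γ E] (K : Subgroup Γ) : ContinuousConstSMul K E :=
  ⟨fun κ => continuous_const_smul (κ : Γ)⟩

attribute [local instance] ccs5

section subg
variable {d : ℕ} {E Γ : Type} [TopologicalSpace E] [Group Γ] [MulAction Γ E]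
  [ContinuousConstSMul Γ E] {S : Sheets d E Γ} (K : Subgroup Γ) [K.FiniteIndex]

theorem polyInA_sub {q : Cm d → E} {A : Set (Cm d)} (h : PolyInA S q A) :
    PolyInA (sub S K) q A where
  hol v hv i z hz κ he := by
    have h1 : q v = ((κ : Γ) * rep K (idx K S.N i).2) • S.σ (idx K S.N i).1 z := by
      rw [mul_smul]
      exact he
    obtain ⟨θ, h2, h3, h4⟩ := h.hol v hv _ z hz _ h1
    refine ⟨θ, h2, h3, ?_⟩
    filter_upwards [h4] with u hu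
    rw [hu, mul_smul]
    rfl
  inj v hv v' hv' κ he := h.inj v hv v' hv' (κ : Γ) he

theorem tameInA_sub {w : Fin S.N → Cm d → Matrix (Fin d) (Fin d) ℂ} {C : ℝ} {q : Cm d → E}
    {A : Set (Cm d)} (h : TameInA S w C q A) :
    TameInA (sub S K) (fun i => w (idx K S.N i).1) C q A := by
  intro v hv i z hz κ θ hθ hθz hev ξ
  refine h v hv (idx K S.N i).1 z hz ((κ : Γ) * rep K (idx K S.N i).2) θ hθ hθz ?_ ξ
  filter_upwards [hev] with u hu
  rw [mul_smul]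
  exact hu

end subg

section pt
variable {p d : ℕ} {Z Y : Type} [TopologicalSpace Z] [T2Space Z] [ChartedSpace (Cm (p + d)) Z]
  [IsManifold 𝓘(ℂ, Cm (p + d)) ω Z] [TopologicalSpace Y] [T2Space Y] [ChartedSpace (Cm p) Y]
  [IsManifold 𝓘(ℂ, Cm p) ω Y] {f : Z → Y}
  {w : Chart (p + d) Z → Cm (p + d) → Matrix (Fin (p + d)) (Fin (p + d)) ℂ}
  {E Γ : Type} [TopologicalSpace E] [Group Γ]
  [MulAction Γ E] [ContinuousConstSMul Γ E] {𝓕 : Fam p d E Γ} {Qm : Cm p → E → Z}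
  {χ : OpenPartialHomeomorph Y (Cm p)}

/-- tameness at one point -/
theorem tame_pt (M : Model (n := p + d) f 𝓕 χ Qm)
    {W : Fin 𝓕.N → Cm p × Cm d → Matrix (Fin p ⊕ Fin d) (Fin p ⊕ Fin d) ℂ}
    (hW' : IsPull w 𝓕 Qm W) {t : Cm p} (ht : t ∈ 𝓕.T) {q : Cm d → Z} {v : Cm d} {C : ℝ}
    {q' : Cm d → E} (hqq : ∀ᶠ u in 𝓝 v, Qm t (q' u) = q u) {i : Fin 𝓕.N} {z : Cm d}
    (hz : z ∈ ball (0 : Cm d) 3) {γ : Γ} {θ : Cm d → Cm d} (hθ : AnalyticAt ℂ θ v)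
    (hθz : θ v = z) (hev : ∀ᶠ u in 𝓝 v, q' u = γ • 𝓕.σ i t (θ u)) {ξ : Cm d}
    (hT : ∀ e : Chart (p + d) Z, At e (q v) → ‖ξ‖ ^ 2 ≤ C * (∑ i, ∑ j, w e (e (q v)) i j *
      fderiv ℂ (fun s => e (q s)) v ξ i * conj (fderiv ℂ (fun s => e (q s)) v ξ j)).re) :
    ‖ξ‖ ^ 2 ≤ C * (∑ j, ∑ k, fibW W t i z j k * fderiv ℂ θ v ξ j *
      conj (fderiv ℂ θ v ξ k)).re := by
  have hqv : q v = Qm t (𝓕.σ i t z) := by
    rw [← hqq.self_of_nhds, hev.self_of_nhds, hθz]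
    exact q_smul_of M ht γ _
  obtain ⟨e, he⟩ : ∃ e : Chart (p + d) Z, At e (q v) :=
    ⟨chartAt (Cm (p + d)) (q v), chart_mem_atlas _ _, mem_chart_source _ _⟩
  have he' : At e (Qm t (𝓕.σ i t z)) := by rwa [← hqv]
  have h1 := hT e he
  have hW := H969.K.fibW_eq M hW' ht hz he'
  -- the chain rule
  have hevq : (fun u => e (q u)) =ᶠ[𝓝 v] fun u => e (Qm t (𝓕.σ i t (θ u))) := by
    filter_upwards [hev, hqq] with u a b
    rw [← b, a]
    congr 1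
    exact q_smul_of M ht γ _
  have han : AnalyticAt ℂ (fun u => e (Qm t (𝓕.σ i t u))) z :=
    H969.K.analyticAt_chart he' (contMDiffAt_slice (M.hol i _ ht z hz))
  have hD : fderiv ℂ (fun u => e (q u)) v ξ =
      fderiv ℂ (fun u => e (Qm t (𝓕.σ i t u))) z (fderiv ℂ θ v ξ) := by
    rw [hevq.fderiv_eq]
    have h2 := fderiv_comp (g := fun u => e (Qm t (𝓕.σ i t u))) v (f := θ)
      (by rw [hθz]; exact han.differentiableAt) hθ.differentiableAt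
    have h3 : ((fun u => e (Qm t (𝓕.σ i t u))) ∘ θ) =
        fun u => e (Qm t (𝓕.σ i t (θ u))) := rfl
    rw [h3, hθz] at h2
    rw [h2]
    rfl
  have hD' : ∀ a, fderiv ℂ (fun u => e (q u)) v ξ a =
      ∑ j, H969.K.jacF 𝓕 Qm e i t z a j * fderiv ℂ θ v ξ j := by
    intro a
    rw [hD]
    have h2 : fderiv ℂ θ v ξ = ∑ j, (fderiv ℂ θ v ξ j) • (Pi.single j (1 : ℂ) : Cm d) := by
      funext l
      simp [Finset.sum_apply, Pi.single_apply]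
    conv_lhs => rw [h2]
    rw [map_sum, Finset.sum_apply]
    refine Finset.sum_congr rfl fun j _ => ?_
    rw [map_smul, Pi.smul_apply, smul_eq_mul, mul_comm]
    rfl
  refine h1.trans (le_of_eq ?_)
  congr 2
  rw [hW, ← hqv]
  simp only [hD']
  exact quad_pull _ _ _

/-- the preimage of a null set by a slice -/
theorem null_slice (M : Model (n := p + d) f 𝓕 χ Qm) {t : Cm p} (ht : t ∈ 𝓕.T) {N : Set Z}
    (hN : ∀ i, volume {z : Cm d | z ∈ ball (0 : Cm d) 3 ∧ Qm t (𝓕.σ i t z) ∈ N} = 0)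
    {q : Cm d → Z} {q' : Cm d → E} {v₀ : Cm d} {r : ℝ}
    (hpoly : PolyIn (𝓕.at t ht) q' v₀ r)
    (hqq : ∀ v ∈ ball v₀ r, Qm t (q' v) = q v)
    (himm : ∀ v ∈ ball v₀ r, ∀ ξ, mfderiv 𝓘(ℂ, Cm d) 𝓘(ℂ, Cm (p + d)) q v ξ = 0 → ξ = 0) :
    volume {v : Cm d | v ∈ ball v₀ r ∧ q v ∈ N} = 0 := by
  refine measure_null_of_locally_null _ fun x hx => ?_
  obtain ⟨hxb, hxN⟩ := hx
  obtain ⟨γ, i, z, hz, he⟩ := 𝓕.cover t ht (q' x)
  have hz3 : z ∈ ball (0 : Cm d) 3 := Sh.mem3 hz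
  obtain ⟨θ, h1, h2, h3⟩ := hpoly.hol x hxb i z hz3 γ he.symm
  have h3' : ∀ᶠ s in 𝓝 x, q s = Qm t (𝓕.σ i t (θ s)) := by
    filter_upwards [h3, isOpen_ball.mem_nhds hxb] with s a b
    rw [← hqq s b, a]
    exact q_smul_of M ht γ _
  have hF : ContMDiffAt 𝓘(ℂ, Cm d) 𝓘(ℂ, Cm (p + d)) ω (fun w => Qm t (𝓕.σ i t w)) (θ x) := by
    rw [h2]
    exact contMDiffAt_slice (M.hol i t ht z hz3)
  have hinj : ∀ ξ, fderiv ℂ θ x ξ = 0 → ξ = 0 := by
    intro ξ hξ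
    refine himm x hxb ξ ?_
    have hθm : MDifferentiableAt 𝓘(ℂ, Cm d) 𝓘(ℂ, Cm d) θ x :=
      h1.differentiableAt.mdifferentiableAt
    have h4 := mfderiv_comp_apply x (g := fun w => Qm t (𝓕.σ i t w)) (f := θ)
      (hF.mdifferentiableAt (by simp)) hθm ξ
    have h5 : q =ᶠ[𝓝 x] (fun w => Qm t (𝓕.σ i t w)) ∘ θ := h3'
    have h6 : mfderiv 𝓘(ℂ, Cm d) 𝓘(ℂ, Cm (p + d)) q x =
        mfderiv 𝓘(ℂ, Cm d) 𝓘(ℂ, Cm (p + d)) ((fun w => Qm t (𝓕.σ i t w)) ∘ θ) x := h5.mfderiv_eq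
    have h7 : mfderiv 𝓘(ℂ, Cm d) 𝓘(ℂ, Cm d) θ x ξ = 0 := by
      rw [mfderiv_eq_fderiv]
      exact hξ
    rw [h6]
    rw [h7] at h4
    exact h4.trans (map_zero _)
  -- the local inverse
  set T : Cm d ≃L[ℂ] Cm d := (LinearEquiv.ofInjectiveEndo
    (fderiv ℂ θ x : Cm d →ₗ[ℂ] Cm d) (LinearMap.ker_eq_bot.1 (LinearMap.ker_eq_bot'.2
      hinj))).toContinuousLinearEquiv with hT
  have hTd : HasFDerivAt θ (T : Cm d →L[ℂ] Cm d) x := by
    have h4 : (T : Cm d →L[ℂ] Cm d) = fderiv ℂ θ x := by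
      ext w
      rfl
    rw [h4]
    exact h1.differentiableAt.hasFDerivAt
  have hcd : ContDiffAt ℂ ω θ x := h1.contDiffAt
  have hn0 : (ω : WithTop ℕ∞) ≠ 0 := by simp
  set g := hcd.localInverse hTd hn0 with hg
  have hgc : ContDiffAt ℂ ω g (θ x) := hcd.to_localInverse hTd hn0
  have hgl : ∀ᶠ s in 𝓝 x, g (θ s) = s := (hcd.hasStrictFDerivAt' hTd hn0).eventually_left_inverse
  have hga : ∀ᶠ w in 𝓝 (θ x), AnalyticAt ℂ g w := hgc.analyticAt.eventually_analyticAt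
  have hball : ∀ᶠ w in 𝓝 (θ x), w ∈ ball (0 : Cm d) 3 := by
    rw [h2]
    exact isOpen_ball.mem_nhds hz3
  set S : Set (Cm d) := {w | AnalyticAt ℂ g w ∧ w ∈ ball (0 : Cm d) 3 ∧
    Qm t (𝓕.σ i t w) ∈ N} with hS
  have hS0 : volume S = 0 := by
    refine measure_mono_null ?_ (hN i)
    rintro w ⟨-, b1, b2⟩
    exact ⟨b1, b2⟩
  have hgS : volume (g '' S) = 0 :=
    addHaar_image_eq_zero_of_differentiableOn_of_addHaar_eq_zero volume
      (fun w hw => (hw.1.differentiableAt.restrictScalars ℝ).differentiableWithinAt) hS0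
  refine ⟨{s | g (θ s) = s ∧ (AnalyticAt ℂ g (θ s) ∧ θ s ∈ ball (0 : Cm d) 3) ∧
    q s = Qm t (𝓕.σ i t (θ s))} ∩ {v | v ∈ ball v₀ r ∧ q v ∈ N}, ?_, ?_⟩
  · refine inter_mem ?_ self_mem_nhdsWithin
    exact mem_nhdsWithin_of_mem_nhds
      (hgl.and ((h1.continuousAt.eventually (hga.and hball)).and h3'))
  · refine measure_mono_null ?_ hgS
    rintro s ⟨⟨b1, ⟨b2, b3⟩, b4⟩, -, b5⟩
    refine ⟨θ s, ⟨b2, b3, ?_⟩, b1⟩
    rw [← b4]
    exact b5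

end pt

namespace Ds

variable {p d : ℕ} {Z Y Z₁ Y₁ : Type} [TopologicalSpace Z] [T2Space Z]
  [ChartedSpace (Cm (p + d)) Z] [IsManifold 𝓘(ℂ, Cm (p + d)) ω Z] [TopologicalSpace Y]
  [T2Space Y] [ChartedSpace (Cm p) Y] [IsManifold 𝓘(ℂ, Cm p) ω Y] [TopologicalSpace Z₁]
  [T2Space Z₁] [ChartedSpace (Cm (p + d)) Z₁] [IsManifold 𝓘(ℂ, Cm (p + d)) ω Z₁]
  [TopologicalSpace Y₁] [T2Space Y₁] [ChartedSpace (Cm p) Y₁] [IsManifold 𝓘(ℂ, Cm p) ω Y₁]
  {E Γ E₁ Γ₁ : Type} [TopologicalSpace E] [Group Γ] [MulAction Γ E] [ContinuousConstSMul Γ E]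
  [TopologicalSpace E₁] [Group Γ₁] [MulAction Γ₁ E₁] [ContinuousConstSMul Γ₁ E₁]
  {f : Z → Y} {f₁ : Z₁ → Y₁} {u : Z₁ → Z} {v : Y₁ → Y} {𝓕 : Fam p d E Γ}
  {Q : Cm p → E → Z} {χ : OpenPartialHomeomorph Y (Cm p)} {𝓕₁ : Fam p d E₁ Γ₁}
  {Q₁ : Cm p → E₁ → Z₁} {χ₁ : OpenPartialHomeomorph Y₁ (Cm p)} {t t₁ : Cm p} {V : E₁ → E}
  {ρ : Γ₁ ≃* Γ} {q : Cm d → Z} {q' : Cm d → E} {v₀ : Cm d} {r : ℝ} {e : Cm d → E₁}

theorem polyInA (h : Ds f f₁ u v 𝓕 Q χ 𝓕₁ Q₁ χ₁ t t₁ V ρ)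
    (hq : IsPolydisc (Cm (p + d)) f q v₀ r) (hq' : ∀ x ∈ ball v₀ r, ContinuousAt q' x)
    (hQ : ∀ x ∈ ball v₀ r, Q t (q' x) = q x) (he : ∀ s, V (e s) = q' s) :
    PolyInA (𝓕₁.at t₁ h.ht₁) e
      {x | x ∈ ball v₀ r ∧ q x ∉ u '' excSet (Cm (p + d)) u} where
  hol x hx i z hz γ heq := by
    obtain ⟨θ, h1, h2, h3, -⟩ := h.loc (hq.1 x hx.1) (hq' x hx.1)
      (by filter_upwards [isOpen_ball.mem_nhds hx.1] with s hs using hQ s hs) he hx.2 hz heq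
    exact ⟨θ, h1, h2, h3⟩
  inj x hx x' hx' γ heq := by
    refine hq.2.1 hx.1 hx'.1 ?_
    rw [← hQ x hx.1, ← hQ x' hx'.1, ← he x, ← he x', heq, h.smul]
    exact q_smul_of h.M h.ht _ _

theorem tameInA (h : Ds f f₁ u v 𝓕 Q χ 𝓕₁ Q₁ χ₁ t t₁ V ρ)
    {w : Chart (p + d) Z₁ → Cm (p + d) → Matrix (Fin (p + d)) (Fin (p + d)) ℂ}
    {W : Fin 𝓕₁.N → Cm p × Cm d → Matrix (Fin p ⊕ Fin d) (Fin p ⊕ Fin d) ℂ}
    (hW : IsPull w 𝓕₁ Q₁ W) {K : ℝ} (hT : MTame u w K q v₀ r)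
    (hQ : ∀ x ∈ ball v₀ r, Q t (q' x) = q x) (he : ∀ s, V (e s) = q' s) :
    TameInA (𝓕₁.at t₁ h.ht₁) (fibW W t₁) K e
      {x | x ∈ ball v₀ r ∧ q x ∉ u '' excSet (Cm (p + d)) u} := by
  intro x hx i z hz γ θ hθ hθz hev ξ
  have hev' : ∀ᶠ s in 𝓝 x, e s = γ • 𝓕₁.σ i t₁ (θ s) := hev
  refine tame_pt (q := fun s => Q₁ t₁ (e s)) h.M₁ hW h.ht₁
    (Eventually.of_forall fun _ => rfl) hz hθ hθz hev' ?_
  have hball : ∀ᶠ s in 𝓝 x, s ∈ ball v₀ r := isOpen_ball.mem_nhds hx.1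
  have hu : ∀ s ∈ ball v₀ r, u (Q₁ t₁ (e s)) = q s := fun s hs => by
    rw [← h.comm, he, hQ s hs]
  refine fun ec hec => hT x hx.1 (fun s => Q₁ t₁ (e s)) ?_ (hball.mono hu) ?_ ec hec ξ
  · have h1 : ContMDiffAt 𝓘(ℂ, Cm d) 𝓘(ℂ, Cm (p + d)) ω (fun s => Q₁ t₁ (𝓕₁.σ i t₁ (θ s))) x :=
      ContMDiffAt.comp x (g := fun w => Q₁ t₁ (𝓕₁.σ i t₁ w)) (f := θ)
        (by rw [hθz]; exact contMDiffAt_slice (h.M₁.hol i t₁ h.ht₁ z hz))
        hθ.contDiffAt.contMDiffAt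
    refine h1.congr_of_eventuallyEq ?_
    filter_upwards [hev'] with s hs
    show Q₁ t₁ (e s) = _
    rw [hs]
    exact q_smul_of h.M₁ h.ht₁ γ _
  · have h2 : Q₁ t₁ (e x) ∉ excSet (Cm (p + d)) u := fun hc => hx.2 ⟨_, hc, hu x hx.1⟩
    exact notMem_exc.1 h2

end Ds

/-- **C3**. -/
theorem boundC (hNull : NullStmt) (hNo : NormStmt) (hTB : TameBoundAStmt) : BoundCStmt := by
  intro p d m n g Z Y _ _ _ _ _ _ _ _ f C B r K hd hn hok hr hK
  obtain ⟨A, hA⟩ := hTB d r K hd hr hK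
  refine ⟨max A 0, ?_⟩
  intro L t ht q q' v₀ hq hT hqq hpoly π hπ G hG v hv
  obtain ⟨L₁, t₁, V, ρ, D⟩ := L.desc t ht
  have htT := L.hT' ht
  have ht₁T := L₁.hT' D.mem
  have hds : Ds f C.f₁ C.u C.v L.𝓕 L.q L.χ L₁.𝓕 L₁.q L₁.χ t t₁ V ρ :=
    { M := L.model
      M₁ := L₁.model
      mu := hok.mu
      mv := hok.mv
      hcomm := hok.comm
      ht := htT
      ht₁ := ht₁T
      off := D.off
      base := D.base
      cont := D.cont
      surj := D.surj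
      smul := D.smul
      comm := D.comm }
  set e : Cm d → L₁.E := fun s => Function.surjInv D.surj (q' s) with hed
  have he : ∀ s, V (e s) = q' s := fun s => Function.surjInv_eq D.surj (q' s)
  have hq' : ∀ x ∈ ball v₀ r, ContinuousAt q' x := by
    intro x hx
    obtain ⟨γ, i, z, hz, hez⟩ := L.𝓕.cover t htT (q' x)
    have hz3 := Sh.mem3 hz
    obtain ⟨θ, h1, h2, h3⟩ := hpoly.hol x hx i z hz3 γ hez.symm
    have h4 : ContinuousAt (fun u => γ • L.𝓕.σ i t (θ u)) x := by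
      have h5 : ContinuousAt (fun u => γ • L.𝓕.σ i t u) (θ x) := by
        rw [h2]
        exact Sh.contAt_smul (L.𝓕.at t htT) γ i hz3
      exact ContinuousAt.comp (g := fun u => γ • L.𝓕.σ i t u) (f := θ) h5 h1.continuousAt
    exact h4.congr (h3.mono fun u hu => hu.symm)
  set AA : Set (Cm d) := {x | x ∈ ball v₀ r ∧ q x ∉ C.u '' excSet (Cm (p + d)) C.u} with hAA
  have hqc : ContinuousOn q (ball v₀ r) := fun x hx =>
    (hq.1 x hx).continuousAt.continuousWithinAt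
  have hNc : IsClosed (C.u '' excSet (Cm (p + d)) C.u) := hok.mu.closed _ hok.mu.eclosed
  have hAo : IsOpen AA := hqc.isOpen_inter_preimage isOpen_ball hNc.isOpen_compl
  have hA0 : volume (ball v₀ r \ AA) = 0 := by
    refine measure_mono_null (t := {x | x ∈ ball v₀ r ∧ q x ∈ C.N}) ?_ ?_
    · rintro x ⟨hx1, hx2⟩
      refine ⟨hx1, ?_⟩
      by_contra hcon
      exact hx2 ⟨hx1, hcon⟩
    · exact null_slice L.model htT (hNull p d Z Y f C L.E L.Γ L.𝓕 L.q L.χ L₁.E L₁.Γ L₁.𝓕 L₁.q L₁.χ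
        t t₁ hok L.model L₁.model htT ht₁T D.off D.base) hpoly hqq hT.2
  -- the function
  set S := sub (L.𝓕.at t htT) (core L.Γ m) with hSd
  have hbas := L.bas t ht
  have hpolyK : PolyIn S q' v₀ r := polyIn_sub _ hpoly
  set h : Cm d → EuclideanSpace ℂ (Fin g) := fun v => WithLp.toLp 2 (L.F t (q' v)) with hh
  have hdiff : DifferentiableOn ℂ h (ball v₀ r) := by
    intro x hx
    obtain ⟨κ, i, z, hz, hez⟩ := S.cover (q' x)
    have hz3 := Sh.mem3 hz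
    obtain ⟨θ, k1, k2, k3⟩ := hpolyK.hol x hx i z hz3 κ hez.symm
    have h2 : ∀ j, DifferentiableAt ℂ (fun u => L.F t (q' u) j) x := by
      intro j
      have h3 : DifferentiableAt ℂ (fun u => L.F t (S.σ i u) j) (θ x) := by
        rw [k2]
        exact ((hbas.add j).hol i).differentiableAt (isOpen_ball.mem_nhds hz3)
      have h4 : DifferentiableAt ℂ (fun u => L.F t (S.σ i (θ u)) j + L.c t κ j) x :=
        (DifferentiableAt.comp (g := fun u => L.F t (S.σ i u) j) (f := θ) x h3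
          k1.differentiableAt).add_const _
      refine h4.congr_of_eventuallyEq ?_
      filter_upwards [k3] with u hu
      rw [hu]
      exact (hbas.add j).add κ _
    have h5 : DifferentiableAt ℂ (fun u => L.F t (q' u)) x := differentiableAt_pi.2 h2
    exact ((PiLp.continuousLinearEquiv 2 ℂ (fun _ : Fin g => ℂ)).symm.differentiableAt.comp x
      h5).differentiableWithinAt
  have hvr : v ∈ ball v₀ r := ball_subset_ball (by linarith) hv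
  have hGd : DifferentiableAt ℂ (fun u => G (h u)) v :=
    G.differentiableAt.comp v (hdiff.differentiableAt (isOpen_ball.mem_nhds hvr))
  refine ContinuousLinearMap.opNorm_le_bound _ (le_max_right _ _) fun ξ => ?_
  obtain ⟨l, hl1, hl2⟩ := exists_dual_vector'' ℂ (fderiv ℂ (fun u => G (h u)) v ξ)
  have hbas₁ := L₁.bas t₁ D.mem
  have hKah := kah_fW (core L₁.Γ m) L₁.kfam ht₁T
  set c' : core L₁.Γ m → ℂ := fun γ => l (G (WithLp.toLp 2 (L₁.c t₁ γ))) with hc'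
  have hAdd : Add (sub (L₁.𝓕.at t₁ ht₁T) (core L₁.Γ m))
      (fun e => l (G (WithLp.toLp 2 (L₁.F t₁ e)))) c' := by
    set l' : EuclideanSpace ℂ (Fin g) →L[ℂ] ℂ := l.comp (G : EuclideanSpace ℂ (Fin g) →L[ℂ]
      EuclideanSpace ℂ (Fin g)) with hl'
    have h1 := Add.sum hbas₁.add (fun j => l' (WithLp.toLp 2 (Pi.single j 1)))
    have h2 : (fun e => l (G (WithLp.toLp 2 (L₁.F t₁ e)))) =
        fun e => ∑ j, l' (WithLp.toLp 2 (Pi.single j 1)) * L₁.F t₁ e j := by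
      funext e
      exact functional_eq l' _
    have h3 : c' = fun γ => ∑ j, l' (WithLp.toLp 2 (Pi.single j 1)) * L₁.c t₁ γ j := by
      funext γ
      exact functional_eq l' _
    rw [h2, h3]
    exact h1
  have hπ' : ∀ x, π x = perMap L₁.M (L₁.c t₁) x := by
    intro x
    rw [hπ x, D.hM]
    unfold perMap
    congr 1
    funext j
    refine Finset.sum_congr rfl fun k _ => ?_
    congr 1
    exact congrFun (D.hc (L₁.M.g k)) j
  have h4 := hA L₁.E (core L₁.Γ m) (sub (L₁.𝓕.at t₁ ht₁T) (core L₁.Γ m)) _ _ c' hKah hAdd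
    (hNo d L₁.E (core L₁.Γ m) (sub (L₁.𝓕.at t₁ ht₁T) (core L₁.Γ m)) _ n g L₁.M B _ _ hd hKah hn
      (L₁.form _ ht₁T) hbas₁ π hπ' G hG l hl1) e (fun u => l (G (h u))) v₀ AA hAo
    (fun x hx => hx.1) hA0 (polyInA_sub _ (hds.polyInA hq hq' hqq he))
    (tameInA_sub _ (hds.tameInA L₁.pull hT.1 hqq he))
    (fun x hx => (l.differentiableAt.comp x (G.differentiableAt.comp x
      (hdiff.differentiableAt (isOpen_ball.mem_nhds hx)))).differentiableWithinAt)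
    (fun x _ => Eventually.of_forall fun s => by
      show l (G (WithLp.toLp 2 (L.F t (q' s)))) = l (G (WithLp.toLp 2 (L₁.F t₁ (e s))))
      rw [← he s, D.hF]) v hv
  have h5 : fderiv ℂ (fun u => l (G (h u))) v = l.comp (fderiv ℂ (fun u => G (h u)) v) :=
    (l.hasFDerivAt.comp v hGd.hasFDerivAt).fderiv
  rw [h5] at h4
  have h6 : ‖fderiv ℂ (fun u => G (h u)) v ξ‖ = ‖l (fderiv ℂ (fun u => G (h u)) v ξ)‖ := by
    rw [hl2]
    simp
  show ‖fderiv ℂ (fun u => G (h u)) v ξ‖ ≤ max A 0 * ‖ξ‖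
  rw [h6]
  calc ‖l (fderiv ℂ (fun u => G (h u)) v ξ)‖ =
        ‖(l.comp (fderiv ℂ (fun u => G (h u)) v)) ξ‖ := rfl
    _ ≤ ‖l.comp (fderiv ℂ (fun u => G (h u)) v)‖ * ‖ξ‖ := ContinuousLinearMap.le_opNorm _ _
    _ ≤ max A 0 * ‖ξ‖ := by
      gcongr
      exact h4.trans (le_max_left _ _)

/-- **C3**, with the proved inputs. -/
theorem boundC' (hNull : NullStmt) (hNo : NormStmt) : BoundCStmt :=
  boundC hNull hNo H225.tameBoundA

end Vale.Agent.P281.H225.C
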