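import Vale.Agent.P281.H603.C.Ctx
import Vale.Agent.P281.H225.GradA

/-!
# P281, class C (helper225), block C3: slices of `f` and of `f₁`
-/

open Set Filter Metric MeasureTheory Vale.Agent.P281 Vale.Agent.P281.H713 Vale.Agent.P272.K
open scoped Topology ContDiff Manifold ComplexConjugate

set_option linter.unusedSectionVars false

noncomputable section

namespace Vale.Agent.P281.H225.C

open Vale.Agent.P281.H64 (Mark Qf IsProperFibration functional_eq)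
open Vale.Agent.P281.H64.TK Vale.Agent.P281.H603.K Vale.Agent.P281.H864.K
open Vale.Agent.P281.H603.TE Vale.Agent.P281.H603.KodN Vale.Agent.P281.H603.C
open Vale.Agent.P281.H64.Gen (excSet IsSmall2 IsSmallSet)
open Vale.Agent.P281.H64.TU (Tame KTame TameIn)

variable {p d : ℕ} {Z Y Z₁ Y₁ : Type} [TopologicalSpace Z] [T2Space Z]
  [ChartedSpace (Cm (p + d)) Z] [IsManifold 𝓘(ℂ, Cm (p + d)) ω Z] [TopologicalSpace Y]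
  [T2Space Y] [ChartedSpace (Cm p) Y] [IsManifold 𝓘(ℂ, Cm p) ω Y] [TopologicalSpace Z₁]
  [T2Space Z₁] [ChartedSpace (Cm (p + d)) Z₁] [IsManifold 𝓘(ℂ, Cm (p + d)) ω Z₁]
  [TopologicalSpace Y₁] [T2Space Y₁] [ChartedSpace (Cm p) Y₁] [IsManifold 𝓘(ℂ, Cm p) ω Y₁]
  {E Γ E₁ Γ₁ : Type} [TopologicalSpace E] [Group Γ] [MulAction Γ E] [ContinuousConstSMul Γ E]
  [TopologicalSpace E₁] [Group Γ₁] [MulAction Γ₁ E₁] [ContinuousConstSMul Γ₁ E₁]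

/-- two models of corresponding fibres -/
structure Ds (f : Z → Y) (f₁ : Z₁ → Y₁) (u : Z₁ → Z) (v : Y₁ → Y) (𝓕 : Fam p d E Γ)
    (Q : Cm p → E → Z) (χ : OpenPartialHomeomorph Y (Cm p)) (𝓕₁ : Fam p d E₁ Γ₁)
    (Q₁ : Cm p → E₁ → Z₁) (χ₁ : OpenPartialHomeomorph Y₁ (Cm p)) (t t₁ : Cm p) (V : E₁ → E)
    (ρ : Γ₁ ≃* Γ) : Prop where
  M : Model (n := p + d) f 𝓕 χ Q
  M₁ : Model (n := p + d) f₁ 𝓕₁ χ₁ Q₁
  mu : Mod0 (n := p + d) u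
  mv : Mod0 (n := p) v
  hcomm : ∀ x, f (u x) = v (f₁ x)
  ht : t ∈ 𝓕.T
  ht₁ : t₁ ∈ 𝓕₁.T
  off : χ₁.symm t₁ ∉ excSet (Cm p) v
  base : v (χ₁.symm t₁) = χ.symm t
  cont : Continuous V
  surj : Function.Surjective V
  smul : ∀ γ e, V (γ • e) = ρ γ • V e
  comm : ∀ e, Q t (V e) = u (Q₁ t₁ e)

theorem free (𝓕 : Fam p d E Γ) {t : Cm p} (ht : t ∈ 𝓕.T) {e : E} {γ : Γ} (h : γ • e = e) :
    γ = 1 := by
  obtain ⟨U, hU, h1⟩ := disc_of_fam 𝓕 ht e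
  have h2 := mem_of_mem_nhds hU
  exact h1 t e γ h2 (by rw [h]; exact h2)

/-- two maps to `E` with the same image in `Z` -/
theorem eq_near {f : Z → Y} {𝓕 : Fam p d E Γ} {Q : Cm p → E → Z}
    {χ : OpenPartialHomeomorph Y (Cm p)} (M : Model (n := p + d) f 𝓕 χ Q) {t : Cm p}
    (ht : t ∈ 𝓕.T) {A : Type} [TopologicalSpace A] {a b : A → E} {x : A} (ha : ContinuousAt a x)
    (hb : ContinuousAt b x) (hab : a x = b x) (hQ : ∀ᶠ s in 𝓝 x, Q t (a s) = Q t (b s)) :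
    ∀ᶠ s in 𝓝 x, a s = b s := by
  obtain ⟨U, hU, h1⟩ := disc_of_fam 𝓕 ht (a x)
  have h2 : ∀ᶠ s in 𝓝 x, (t, a s) ∈ U :=
    (continuousAt_const.prodMk ha).eventually hU
  have h3 : ∀ᶠ s in 𝓝 x, (t, b s) ∈ U := by
    refine (continuousAt_const.prodMk hb).eventually ?_
    show ∀ᶠ r in 𝓝 (t, b x), r ∈ U
    rw [← hab]
    exact hU
  filter_upwards [h2, h3, hQ] with s c1 c2 c3
  obtain ⟨γ, hγ⟩ := (M.eq t ht _ _).1 c3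
  have h4 := h1 t (a s) γ c1 (by rw [hγ]; exact c2)
  rw [h4, one_smul] at hγ
  exact hγ

namespace Ds

variable {f : Z → Y} {f₁ : Z₁ → Y₁} {u : Z₁ → Z} {v : Y₁ → Y} {𝓕 : Fam p d E Γ}
  {Q : Cm p → E → Z} {χ : OpenPartialHomeomorph Y (Cm p)} {𝓕₁ : Fam p d E₁ Γ₁}
  {Q₁ : Cm p → E₁ → Z₁} {χ₁ : OpenPartialHomeomorph Y₁ (Cm p)} {t t₁ : Cm p} {V : E₁ → E}
  {ρ : Γ₁ ≃* Γ}

theorem V_inj (h : Ds f f₁ u v 𝓕 Q χ 𝓕₁ Q₁ χ₁ t t₁ V ρ) {e e' : E₁} (he : V e = V e')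
    (hx : Q₁ t₁ e ∉ excSet (Cm (p + d)) u) : e = e' := by
  have h1 : u (Q₁ t₁ e) = u (Q₁ t₁ e') := by rw [← h.comm, ← h.comm, he]
  obtain ⟨γ, hγ⟩ := (h.M₁.eq t₁ h.ht₁ _ _).1 (h.mu.inj _ _ h1 hx)
  have h2 : ρ γ • V e = V e := by rw [← h.smul, hγ, ← he]
  have h3 : γ = 1 := by
    have := free 𝓕 h.ht h2
    exact (map_eq_one_iff ρ ρ.injective).1 this
  rw [← hγ, h3, one_smul]

/-- the local form of the lifting of a slice -/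
theorem loc (h : Ds f f₁ u v 𝓕 Q χ 𝓕₁ Q₁ χ₁ t t₁ V ρ) {q : Cm d → Z} {q' : Cm d → E}
    {x : Cm d} (hq : ContMDiffAt 𝓘(ℂ, Cm d) 𝓘(ℂ, Cm (p + d)) ω q x)
    (hq' : ContinuousAt q' x) (hQ : ∀ᶠ s in 𝓝 x, Q t (q' s) = q s) {e : Cm d → E₁}
    (he : ∀ s, V (e s) = q' s) (hx : q x ∉ u '' excSet (Cm (p + d)) u) {i : Fin 𝓕₁.N} {z : Cm d}
    (hz : z ∈ ball (0 : Cm d) 3) {γ : Γ₁} (heq : e x = γ • 𝓕₁.σ i t₁ z) :
    ∃ θ : Cm d → Cm d, AnalyticAt ℂ θ x ∧ θ x = z ∧ (∀ᶠ s in 𝓝 x, e s = γ • 𝓕₁.σ i t₁ (θ s)) ∧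
      ∀ᶠ s in 𝓝 x, θ s ∈ ball (0 : Cm d) 3 := by
  obtain ⟨ζ, a1, a2, a3⟩ := h.M₁.coord i t₁ h.ht₁ z hz
  set x₁ : Z₁ := Q₁ t₁ (𝓕₁.σ i t₁ z) with hx₁
  have hqx₁ : Q₁ t₁ (e x) = x₁ := by rw [heq, q_smul_of h.M₁ h.ht₁]
  have hux : u x₁ = q x := by
    rw [← hqx₁, ← h.comm, he]
    exact hQ.self_of_nhds
  have hexc : x₁ ∉ excSet (Cm (p + d)) u := fun hc => hx ⟨x₁, hc, hux⟩
  have hhol : HolV (Cm (p + d)) (fun y => ζ (inv0 h.mu y)) (u x₁) := holV_of_inv0 h.mu hexc a1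
  have hθ : AnalyticAt ℂ (fun s => ζ (inv0 h.mu (q s))) x := by
    have h1 : ContMDiffAt 𝓘(ℂ, Cm (p + d)) 𝓘(ℂ, Cm d) ω (fun y => ζ (inv0 h.mu y)) (q x) := by
      rw [← hux]
      exact hhol
    have h2 : ContMDiffAt 𝓘(ℂ, Cm d) 𝓘(ℂ, Cm d) ω (fun s => ζ (inv0 h.mu (q s))) x :=
      ContMDiffAt.comp x (g := fun y => ζ (inv0 h.mu y)) (f := q) h1 hq
    exact h2.contDiffAt.analyticAt
  have hθx : ζ (inv0 h.mu (q x)) = z := by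
    rw [← hux, inv0_u h.mu hexc, a2]
  have hinv : Tendsto (fun s => inv0 h.mu (q s)) (𝓝 x) (𝓝 x₁) := by
    have h1 := tendsto_inv0 h.mu hexc
    rw [hux] at h1
    exact h1.comp hq.continuousAt
  have hball : ∀ᶠ s in 𝓝 x, ζ (inv0 h.mu (q s)) ∈ ball (0 : Cm d) 3 := by
    refine hθ.continuousAt.eventually ?_
    show ∀ᶠ w in 𝓝 (ζ (inv0 h.mu (q x))), w ∈ ball (0 : Cm d) 3
    rw [hθx]
    exact isOpen_ball.mem_nhds hz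
  -- the point of `Z₁`
  have hpt : ∀ᶠ s in 𝓝 x, Q₁ t₁ (γ • 𝓕₁.σ i t₁ (ζ (inv0 h.mu (q s)))) = inv0 h.mu (q s) := by
    filter_upwards [hinv.eventually a3, hQ] with s b1 b2
    have h1 : v (χ₁.symm t₁) = v (f₁ (inv0 h.mu (q s))) := by
      rw [h.base, ← h.hcomm, u_inv0 h.mu, ← b2, h.M.fib t h.ht]
    have h2 : f₁ (inv0 h.mu (q s)) = χ₁.symm t₁ := (h.mv.inj _ _ h1 h.off).symm
    rw [h2, χ₁.right_inv (h.M₁.sub h.ht₁)] at b1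
    rw [q_smul_of h.M₁ h.ht₁]
    exact b1
  have hec : ContinuousAt (fun s => γ • 𝓕₁.σ i t₁ (ζ (inv0 h.mu (q s)))) x := by
    have h1 : ContinuousAt (fun w => γ • 𝓕₁.σ i t₁ w) (ζ (inv0 h.mu (q x))) := by
      rw [hθx]
      exact Sh.contAt_smul (𝓕₁.at t₁ h.ht₁) γ i hz
    exact ContinuousAt.comp (g := fun w => γ • 𝓕₁.σ i t₁ w)
      (f := fun s => ζ (inv0 h.mu (q s))) h1 hθ.continuousAt
  have hVe : ∀ᶠ s in 𝓝 x, V (γ • 𝓕₁.σ i t₁ (ζ (inv0 h.mu (q s)))) = q' s := by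
    refine eq_near h.M h.ht (ContinuousAt.comp (g := V) h.cont.continuousAt hec) hq' ?_ ?_
    · show V (γ • 𝓕₁.σ i t₁ (ζ (inv0 h.mu (q x)))) = q' x
      rw [hθx, ← heq, he]
    · filter_upwards [hpt, hQ] with s b1 b2
      show Q t (V (γ • 𝓕₁.σ i t₁ (ζ (inv0 h.mu (q s))))) = Q t (q' s)
      rw [h.comm, b1, u_inv0 h.mu, b2]
  have hnx : ∀ᶠ s in 𝓝 x, inv0 h.mu (q s) ∉ excSet (Cm (p + d)) u :=
    hinv.eventually (h.mu.eclosed.isOpen_compl.mem_nhds hexc)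
  refine ⟨fun s => ζ (inv0 h.mu (q s)), hθ, hθx, ?_, hball⟩
  filter_upwards [hVe, hpt, hnx] with s b1 b2 b3
  refine (h.V_inj ?_ ?_).symm
  · rw [b1, he]
  · rw [b2]
    exact b3

end Ds

end Vale.Agent.P281.H225.C
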