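import Vale.Agent.P281.H152.UC.OrbAct
import Vale.Agent.P281.H225.C.Bound
import Vale.Agent.P281.H225.OrbBnd

/-!
# P281, class C (helper225): the field `bound` of `IsOrbM`
-/

open Set Filter Metric MeasureTheory Vale.Agent.P281 Vale.Agent.P281.H713 Vale.Agent.P272.K
open scoped Topology ContDiff Manifold ComplexConjugate NNReal

set_option linter.unusedSectionVars false

noncomputable section

namespace Vale.Agent.P281.H303.UC

open Vale.Agent.P281.H64 (Mark Qf functional_eq)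
open Vale.Agent.P281.H64.TK Vale.Agent.P281.H603.K Vale.Agent.P281.H864.K
open Vale.Agent.P281.H603.TE Vale.Agent.P281.H603.C Vale.Agent.P281.H603.C.DLocC
open Vale.Agent.P281.H64.TU (TameIn KTame TameBoundStmt NormStmt)
open Vale.Agent.P281.H303.UD (ImmF IsPolz)

attribute [local instance] ccs

variable {p d : ℕ} {Z Y : Type} [TopologicalSpace Z] [T2Space Z] [ChartedSpace (Cm (p + d)) Z]
  [IsManifold 𝓘(ℂ, Cm (p + d)) ω Z] [TopologicalSpace Y] [T2Space Y] [ChartedSpace (Cm p) Y]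
  [IsManifold 𝓘(ℂ, Cm p) ω Y] {f : Z → Y}
  {C : Ctx (p := p) (d := d) f} {m n g b : ℕ}
  {B : Matrix (Fin n) (Fin n) ℝ}

/-- **the field `bound`** -/
theorem orb_bound (hBC : BoundCStmt) (I : Inputs) (hC : C.Ok) (hd : 0 < d)
    (hn : n = 2 * g) {r K : ℝ} (hr : 0 < r) (hK : 0 < K) :
    ∃ A : ℝ, ∀ (L : DLocC C m B g) (T₁ : Set (Cm p))
      (J : Cm p → EuclideanSpace ℂ (Fin b) →L[ℂ] EuclideanSpace ℂ (Fin g))
      (act : EuclideanSpace ℂ (Fin b) × (Cm p × L.E) → L.E), IsFlow L T₁ J act →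
      ∀ (D : (Fin n → ℝ) ≃L[ℝ] EuclideanSpace ℂ (Fin g)) (q : Cm d → Z) (v₀ : Cm d),
      IsPolydisc (Cm (p + d)) f q v₀ r → CTame C.u C.w K q v₀ r → f (q v₀) ∈ L.U →
      L.χ (f (q v₀)) ∈ T₁ → ∃ h : Cm d → EuclideanSpace ℂ (Fin g),
        DifferentiableOn ℂ h (ball v₀ r) ∧
        (∀ G : EuclideanSpace ℂ (Fin g) ≃L[ℂ] EuclideanSpace ℂ (Fin g),
          IsPolz (Qf B) (L.π D (f (q v₀))) G →
          ∀ v ∈ ball v₀ (r / 2), ‖fderiv ℂ (fun u => G (h u)) v‖ ≤ A) ∧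
        (∀ v ∈ ball v₀ r, Function.Injective (fderiv ℂ h v) →
          ∀ x, ∃ ξ, fderiv ℂ h v ξ = J (L.χ (f (q v₀))) x) ∧
        ∃ (β : Z → EuclideanSpace ℂ (Fin g)) (e : L.E), IsPt L (q v₀) β e ∧
          (∀ᶠ v in 𝓝 v₀, β (q v) = h v) ∧
          ∀ c : ℝ → Cm d, ContinuousOn c (Icc 0 1) → (∀ s ∈ Icc (0 : ℝ) 1, c s ∈ ball v₀ r) →
          c 0 = v₀ → ∀ v, (∀ s ∈ Icc (0 : ℝ) 1,
            h (c s) = h v₀ + (s : ℂ) • J (L.χ (f (q v₀))) v) →
          q (c 1) = L.q (L.χ (f (q v₀))) (act (v, (L.χ (f (q v₀)), e))) := by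
  obtain ⟨A, hA⟩ := hBC p d m n g Z Y f C B r K hd hn hC hr hK
  refine ⟨A, ?_⟩
  intro L T₁ J act hAct D q v₀ hq hT hy hT₁
  obtain ⟨q', hqq, hpoly⟩ := lift_polyM L.model hy.1 (L.hT' hy.2) hq rfl hr
  set y := f (q v₀) with hydef
  set t := L.χ y with htdef
  have ht := L.hT' hy.2
  have hbas := L.bas _ hy.2
  have hv₀ : v₀ ∈ ball v₀ r := mem_ball_self hr
  set h : Cm d → EuclideanSpace ℂ (Fin g) := fun v => WithLp.toLp 2 (L.F t (q' v)) with hh
  have hdiff : DifferentiableOn ℂ h (ball v₀ r) := by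
    intro v hv
    obtain ⟨γ, i, z, hz, he⟩ := (L.sh hy).cover (q' v)
    have hz3 := Sh.mem3 hz
    obtain ⟨θ, k1, k2, k3⟩ := hpoly.hol v hv i z hz3 γ he.symm
    have h2 : DifferentiableAt ℂ (fun u => (WithLp.toLp 2
        (L.F t (γ • L.𝓕.σ i t (θ u))) : EuclideanSpace ℂ (Fin g))) v :=
      DifferentiableAt.comp (g := fun u => (WithLp.toLp 2
        (L.F t (γ • L.𝓕.σ i t u)) : EuclideanSpace ℂ (Fin g))) (f := θ) v
        (by rw [k2]; exact differentiableAt_slice hy γ i hz3) k1.differentiableAt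
    refine (h2.congr_of_eventuallyEq ?_).differentiableWithinAt
    filter_upwards [k3] with u hu
    rw [hh]
    simp only
    rw [hu]
    rfl
  refine ⟨h, hdiff, ?_, ?_, ?_⟩
  · intro G hG v hv
    exact hA L t hy.2 q q' v₀ hq hT hqq hpoly (L.π D y) (π_spec I.f2 hd hn D hy) G hG v hv
  · -- tangency
    intro v hv hinj x
    have hpolyK : PolyIn (L.shK hy) q' v₀ r := polyIn_sub _ hpoly
    obtain ⟨κ, i, z, hz, he⟩ := (L.shK hy).cover (q' v)
    have hz3 := Sh.mem3 hz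
    obtain ⟨θ, k1, k2, k3⟩ := hpolyK.hol v hv i z hz3 κ he.symm
    set G : Cm p × Cm d → EuclideanSpace ℂ (Fin g) :=
      fun q => FL L q.1 ((fsub L.𝓕 (core L.Γ m)).σ i q.1 q.2) with hG
    have hGd : DifferentiableAt ℂ G (t, z) := (hAct.imm.hol i t hT₁ z hz3).differentiableAt
    have hGs : HasFDerivAt (fun u => G (t, u))
        ((fderiv ℂ G (t, z)).comp (ContinuousLinearMap.inr ℂ (Cm p) (Cm d))) z :=
      HasFDerivAt.comp z hGd.hasFDerivAt (hasFDerivAt_prodMk_right t z)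
    have hev : h =ᶠ[𝓝 v] fun u => G (t, θ u) + cL L t κ := by
      filter_upwards [k3] with u hu
      show FL L t (q' u) = _
      rw [hu]
      exact FL_add L hy.2 κ _
    have hh' : HasFDerivAt h (((fderiv ℂ G (t, z)).comp
        (ContinuousLinearMap.inr ℂ (Cm p) (Cm d))).comp (fderiv ℂ θ v)) v := by
      rw [← k2] at hGs
      have h7 := (HasFDerivAt.comp v hGs k1.differentiableAt.hasFDerivAt).add_const (cL L t κ)
      rw [k2] at h7
      exact h7.congr_of_eventuallyEq hev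
    have hval : ∀ ξ, fderiv ℂ h v ξ = fderiv ℂ G (t, z) (0, fderiv ℂ θ v ξ) := fun ξ => by
      rw [hh'.fderiv]
      rfl
    have hθi : Function.Injective (fderiv ℂ θ v) := by
      intro ξ ξ' hξ
      apply hinj
      rw [hval, hval, hξ]
    have hθs : Function.Surjective (fderiv ℂ θ v) :=
      (LinearMap.injective_iff_surjective
        (f := (fderiv ℂ θ v : Cm d →ₗ[ℂ] Cm d))).1 hθi
    obtain ⟨η, hη⟩ := hAct.imm.tan i t hT₁ z hz3 x
    obtain ⟨ξ, hξ⟩ := hθs η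
    refine ⟨ξ, ?_⟩
    rw [hval, hξ]
    exact hη
  · -- the lift
    obtain ⟨γ, i, z, hz, he⟩ := (L.sh hy).cover (q' v₀)
    have hz3 := Sh.mem3 hz
    obtain ⟨θ, k1, k2, k3⟩ := hpoly.hol v₀ hv₀ i z hz3 γ he.symm
    have hxz : L.q (L.χ (f (q v₀))) (L.𝓕.σ i (L.χ (f (q v₀))) z) = q v₀ := by
      rw [← L.q_smul hy γ]
      have h1 := hqq v₀ hv₀
      rw [← he] at h1
      exact h1
    obtain ⟨ζ, hco, hζz⟩ := L.exists_co hy hz3 hxz
    refine ⟨fun x => FL L (L.χ (f x)) (γ • L.𝓕.σ i (L.χ (f x)) (ζ x)), q' v₀,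
      ⟨hy, γ, i, ζ, hco, Eventually.of_forall fun _ => rfl, ?_⟩, ?_, ?_⟩
    · rw [hζz]
      exact he.symm
    · have hqc : ContinuousAt q v₀ := (hq.1 v₀ hv₀).continuousAt
      have e1 : ∀ᶠ v in 𝓝 v₀, θ v ∈ ball (0 : Cm d) 3 := k1.continuousAt.eventually (by
        show ∀ᶠ u in 𝓝 (θ v₀), u ∈ ball (0 : Cm d) 3
        rw [k2]
        exact isOpen_ball.mem_nhds hz3)
      have e2 : ∀ᶠ v in 𝓝 v₀, ζ (q v) ∈ ball (0 : Cm d) 3 :=
        hqc.eventually (hco.1.continuousAt.eventually (isOpen_ball.mem_nhds hco.2.1))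
      filter_upwards [e1, e2, k3, hqc.eventually hco.2.2, isOpen_ball.mem_nhds hv₀]
        with v a1 a2 a3 a4 a5
      have hfv : f (q v) = y := hq.2.2 v a5
      rw [hfv] at a4
      have a3' : q' v = γ • L.𝓕.σ i t (θ v) := a3
      have a6 : θ v = ζ (q v) := by
        refine eq_of_q hy (γ := γ) (i := i) a1 a2 ?_
        rw [a4, ← hqq v a5, a3']
      show FL L (L.χ (f (q v))) (γ • L.𝓕.σ i (L.χ (f (q v))) (ζ (q v))) = h v
      rw [hfv, ← a6, hh]
      simp only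
      rw [a3']
      rfl
    · intro c hc hcb hc0 v hcv
      have hP : ImmF.Pth (FL L t) (J t v) (q' v₀) (q' (c 1)) := by
        refine ⟨fun s => q' (c s), ?_, ?_, rfl, fun s hs => hcv s hs⟩
        · intro s hs
          exact ContinuousAt.comp_continuousWithinAt (g := q') (f := c)
            (H225.poly_cont hpoly (hcb s hs)) (hc s hs)
        · show q' (c 0) = q' v₀
          rw [hc0]
      rw [hAct.eq_of_pth hT₁ hP]
      exact (hqq _ (hcb 1 (right_mem_Icc.2 zero_le_one))).symm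

end Vale.Agent.P281.H303.UC
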