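import Vale.Agent.P281.H225.C.OrbV
import Vale.Agent.P281.H152.R.Fam

/-!
# P281, project T-UD (helper303): the local data are immersed; existence of the flow
-/

open Set Filter Metric MeasureTheory Vale.Agent.P281 Vale.Agent.P281.H713 Vale.Agent.P272.K
open scoped Topology ContDiff Manifold ComplexConjugate NNReal

set_option linter.unusedSectionVars false

noncomputable section

namespace Vale.Agent.P281.H303.UC

open Vale.Agent.P281.H64 (Mark Qf functional_eq)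
open Vale.Agent.P281.H64.TK Vale.Agent.P281.H603.K Vale.Agent.P281.H864.K
open Vale.Agent.P281.H603.TE Vale.Agent.P281.H603.C
open Vale.Agent.P281.H303.UD (ImmF)
open Vale.Agent.P281.H64.TU (TameIn KTame TameBoundStmt NormStmt)
open Vale.Agent.P281.H349.O (Tan lift_unique)
open Vale.Agent.P281.H152.R (Imm0 HF Bt)

attribute [local instance] ccs

variable {p d : ℕ} {Z Y : Type} [TopologicalSpace Z] [T2Space Z] [ChartedSpace (Cm (p + d)) Z]
  [IsManifold 𝓘(ℂ, Cm (p + d)) ω Z] [TopologicalSpace Y] [T2Space Y] [ChartedSpace (Cm p) Y]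
  [IsManifold 𝓘(ℂ, Cm p) ω Y] {f : Z → Y} {C : Ctx (p := p) (d := d) f} {m n g b : ℕ}
  {B : Matrix (Fin n) (Fin n) ℝ}

theorem HL_hol (L : DLocC C m B g) (i : Fin (fsub L.𝓕 (core L.Γ m)).N)
    {t : Cm p} (ht : t ∈ L.T') {z : Cm d} (hz : z ∈ ball (0 : Cm d) 3) :
    AnalyticAt ℂ (HL L i) (t, z) := by
  have h6 : ContDiffAt ℂ ω (fun q : Cm p × Cm d =>
      L.F q.1 ((fsub L.𝓕 (core L.Γ m)).σ i q.1 q.2)) (t, z) := by
    rw [contDiffAt_pi]
    intro j
    exact (L.holF i t ht z hz j).contDiffAt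
  exact ((PiLp.continuousLinearEquiv 2 ℂ (fun _ : Fin g => ℂ)).symm.contDiff.contDiffAt.comp _
    h6).analyticAt

/-- in the letters of helper152 -/
theorem imm0 {L : DLocC C m B g} (hI : ImL L) :
    Imm0 (fsub L.𝓕 (core L.Γ m)) L.T' (FL L) (cL L) where
  sub := L.hT'
  isOpen := L.isOpen'
  add t ht κ e := FL_add L ht κ e
  hol i t ht z hz := HL_hol L i ht hz
  imm i t ht z hz ξ h := hI i t ht z hz ξ h

theorem mem_Bt_iff {L : DLocC C m B g} (hI : ImL L) {t : Cm p}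
    (ht : t ∈ L.T') (v : EuclideanSpace ℂ (Fin g)) :
    v ∈ Bt (HL L) t ↔ ∀ e, Tan (FL L t) e v :=
  ((imm0 hI).mem_bs ht).symm

/-- **the flow** -/
theorem exists_isFlow {L : DLocC C m B g} (hI : ImL L) {T₁ : Set (Cm p)}
    (hT₁ : T₁ ⊆ L.T') (ho : IsOpen T₁)
    {J : Cm p → EuclideanSpace ℂ (Fin b) →L[ℂ] EuclideanSpace ℂ (Fin g)}
    (hJ : ∀ t ∈ T₁, AnalyticAt ℂ J t) (htan : ∀ t ∈ T₁, ∀ v e, Tan (FL L t) e (J t v)) :
    ∃ act, IsFlow L T₁ J act := by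
  have h1 : ImmF (fsub L.𝓕 (core L.Γ m)) T₁ (FL L) (cL L) J :=
    ((imm0 hI).mono hT₁ ho).immF hJ fun t ht v =>
      (mem_Bt_iff hI (hT₁ ht) _).2 fun e => htan t ht v e
  obtain ⟨act, a1, a2, a3, a4⟩ := h1.exists_flow
  exact ⟨act, hT₁, h1, a1, a2, a3, a4⟩

end Vale.Agent.P281.H303.UC
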