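import Vale.Agent.P281.H225.C.OrbI
import Vale.Agent.P281.H225.C.OrbBnd
import Vale.Agent.P281.H511.UD.Pr

/-!
# P281, project T-UD (helper303): `IsOrbM` from the linear data
-/

open Set Filter Metric MeasureTheory Vale.Agent.P281 Vale.Agent.P281.H713 Vale.Agent.P272.K
open scoped Topology ContDiff Manifold ComplexConjugate NNReal

set_option linter.unusedSectionVars false

noncomputable section

namespace Vale.Agent.P281.H303.UC

open Vale.Agent.P281.H64 (Mark Qf functional_eq)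
open Vale.Agent.P281.H64.TK Vale.Agent.P281.H603.K Vale.Agent.P281.H864.K
open Vale.Agent.P281.H603.TE Vale.Agent.P281.H603.C
open Vale.Agent.P281.H303.UD (ImmF IsPolz IsOrbM)
open Vale.Agent.P281.H64.TU (TameIn KTame TameBoundStmt NormStmt)
open Vale.Agent.P281.H349.O (Tan lift_unique)
open Vale.Agent.P281.H64.TD (zr)

attribute [local instance] ccs

variable {p d : ℕ} {Z Y : Type} [TopologicalSpace Z] [T2Space Z] [ChartedSpace (Cm (p + d)) Z]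
  [IsManifold 𝓘(ℂ, Cm (p + d)) ω Z] [TopologicalSpace Y] [T2Space Y] [ChartedSpace (Cm p) Y]
  [IsManifold 𝓘(ℂ, Cm p) ω Y] {f : Z → Y} {C : Ctx (p := p) (d := d) f} {m n g : ℕ}
  {B : Matrix (Fin n) (Fin n) ℝ}

/-- the linear data (helper152, helper511) -/
structure LinD {ι : Type} (L : ι → DLocC C m B g)
    (D : ι → ((Fin n → ℝ) ≃L[ℝ] EuclideanSpace ℂ (Fin g))) (S : Set Y) {nb b : ℕ}
    (QB : (Fin nb → ℝ) → (Fin nb → ℝ) → ℝ) {ι' : Type} (s : ι' → ι) (U' : ι' → Set Y)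
    (ϖ : ι' → Y → ((Fin nb → ℝ) ≃L[ℝ] EuclideanSpace ℂ (Fin b)))
    (j : ι' → Y → EuclideanSpace ℂ (Fin b) →L[ℂ] EuclideanSpace ℂ (Fin g))
    (ℓ : ι' → Y → EuclideanSpace ℂ (Fin g) →L[ℂ] EuclideanSpace ℂ (Fin b)) : Prop where
  sub : ∀ a, U' a ⊆ (L (s a)).U
  per : IsPeriodFamily (Cm p) S (Qf B) U' (fun a => (L (s a)).π (D (s a)))
  famb : IsPeriodFamily (Cm p) S QB U' ϖ
  lj : ∀ a, ∀ y ∈ U' a, ∀ b, ℓ a y (j a y b) = b
  jhol : ∀ a b, ∀ y ∈ U' a,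
    ContMDiffAt 𝓘(ℂ, Cm p) 𝓘(ℂ, EuclideanSpace ℂ (Fin g)) ω (fun y => j a y b) y
  lhol : ∀ a v, ∀ y ∈ U' a,
    ContMDiffAt 𝓘(ℂ, Cm p) 𝓘(ℂ, EuclideanSpace ℂ (Fin b)) ω (fun y => ℓ a y v) y
  norm : ∀ a, ∀ y ∈ U' a, ∀ G : EuclideanSpace ℂ (Fin g) ≃L[ℂ] EuclideanSpace ℂ (Fin g),
    IsPolz (Qf B) ((L (s a)).π (D (s a)) y) G → ∀ v, ‖G (j a y (ℓ a y v))‖ ≤ ‖G v‖
  rel : ∀ a, ∀ y ∈ U' a, ∀ G : EuclideanSpace ℂ (Fin g) ≃L[ℂ] EuclideanSpace ℂ (Fin g),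
    IsPolz (Qf B) ((L (s a)).π (D (s a)) y) G →
    ∀ Gb : EuclideanSpace ℂ (Fin b) ≃L[ℂ] EuclideanSpace ℂ (Fin b),
    IsPolz QB (ϖ a y) Gb → ∀ b, ‖Gb b‖ = ‖G (j a y b)‖
  tan : ∀ a, ∀ y ∈ U' a, ∀ x e, Tan (FL (L (s a)) ((L (s a)).χ y)) e (j a y x)
  kper : ∀ a, ∀ y ∈ U' a, ∀ k : Fin nb → ℤ, ∃ κ ∈ NL (L (s a)) ((L (s a)).χ y),
    j a y (ϖ a y (zr k)) = cL (L (s a)) ((L (s a)).χ y) κ
  change : ∀ a a', ∀ y ∈ U' a ∩ U' a', ∀ (τ : (L (s a)).E ≃ₜ (L (s a')).E)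
    (ρ : (L (s a)).Γ ≃* (L (s a')).Γ)
    (G : EuclideanSpace ℂ (Fin g) ≃L[ℂ] EuclideanSpace ℂ (Fin g)) (c : EuclideanSpace ℂ (Fin g)),
    IsCmp (L (s a)) (L (s a')) (D (s a)) (D (s a')) y τ ρ G c →
    ∃ Gb : EuclideanSpace ℂ (Fin b) ≃L[ℂ] EuclideanSpace ℂ (Fin b),
      IsPeriodChange QB (ϖ a y) (ϖ a' y) Gb ∧ (∀ v, j a' y (Gb v) = G (j a y v)) ∧
      ∀ v, ℓ a' y (G v) = Gb (ℓ a y v)

theorem symm_mem' (L : DLocC C m B g) {t : Cm p} (ht : t ∈ L.T') :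
    t ∈ L.χ.target := L.model.sub (L.hT' ht)

/-- the flow of the linear data -/
theorem exists_flow_of (L : DLocC C m B g) (hI : ImL L) {U' : Set Y}
    (hU : U' ⊆ L.U) (ho : IsOpen U') {b : ℕ}
    {j : Y → EuclideanSpace ℂ (Fin b) →L[ℂ] EuclideanSpace ℂ (Fin g)}
    (hj : ∀ b, ∀ y ∈ U',
      ContMDiffAt 𝓘(ℂ, Cm p) 𝓘(ℂ, EuclideanSpace ℂ (Fin g)) ω (fun y => j y b) y)
    (htan : ∀ y ∈ U', ∀ x e, Tan (FL L (L.χ y)) e (j y x)) :
    ∃ (T₁ : Set (Cm p)) (act : EuclideanSpace ℂ (Fin b) × (Cm p × L.E) → L.E),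
      IsFlow L T₁ (fun t => j (L.χ.symm t)) act ∧ ∀ y ∈ U', L.χ y ∈ T₁ := by
  set T₁ : Set (Cm p) := L.T' ∩ L.χ.symm ⁻¹' U' with hT₁
  have hTo : IsOpen T₁ := by
    have h1 : ContinuousOn L.χ.symm L.T' := L.χ.continuousOn_symm.mono fun t ht => symm_mem' L ht
    exact h1.isOpen_inter_preimage L.isOpen' ho
  have hmem : ∀ y ∈ U', L.χ y ∈ T₁ := by
    intro y hy
    refine ⟨(hU hy).2, ?_⟩
    show L.χ.symm (L.χ y) ∈ U'
    rw [L.left_inv (hU hy)]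
    exact hy
  have hJ : ∀ t ∈ T₁, AnalyticAt ℂ (fun t => j (L.χ.symm t)) t := by
    intro t ht
    have h4 : ∀ x, ContMDiffAt 𝓘(ℂ, Cm p) 𝓘(ℂ, EuclideanSpace ℂ (Fin g)) ω
        (fun t => j (L.χ.symm t) x) t := by
      intro x
      have h2 : ContMDiffAt 𝓘(ℂ, Cm p) 𝓘(ℂ, Cm p) ω L.χ.symm t := by
        have h3 := contMDiffOn_symm_of_mem_maximalAtlas (I := 𝓘(ℂ, Cm p)) (n := ω)
          (IsManifold.subset_maximalAtlas L.model.atlas)
        exact h3.contMDiffAt (L.χ.open_target.mem_nhds (symm_mem' L ht.1))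
      exact ContMDiffAt.comp t (g := fun y => j y x) (f := L.χ.symm) (hj x _ ht.2) h2
    set bb := Module.finBasis ℂ (EuclideanSpace ℂ (Fin b)) with hbb
    have h5 := H511.UD.lcomb_hol (E' := Cm p) bb (x := fun t i => j (L.χ.symm t) (bb i))
      (y₀ := t) fun i => h4 (bb i)
    have h6 : (fun t => H511.UD.lcomb bb fun i => j (L.χ.symm t) (bb i)) =
        fun t => j (L.χ.symm t) := by
      funext t
      ext1 v
      rw [H511.UD.lcomb_apply]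
      conv_rhs => rw [← bb.sum_repr v]
      rw [map_sum]
      exact Finset.sum_congr rfl fun i _ => (_root_.map_smul _ _ _).symm
    rw [h6] at h5
    exact h5.contDiffAt.analyticAt
  obtain ⟨act, hact⟩ := exists_isFlow hI (T₁ := T₁) inter_subset_left hTo hJ
    (fun t ht v e => by
      have h1 := htan _ ht.2 v e
      rwa [L.χ.right_inv (symm_mem' L ht.1)] at h1)
  exact ⟨T₁, act, hact, hmem⟩

/-- **`IsOrbM` from the linear data** -/
theorem isOrbM_of (hBC : BoundCStmt) (I : Inputs) (hd : 0 < d)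
    (hn : n = 2 * g) (hf : ContMDiff 𝓘(ℂ, Cm (p + d)) 𝓘(ℂ, Cm p) ω f) (hw : C.Ok)
    {ι : Type} {L : ι → DLocC C m B g}
    {D : ι → ((Fin n → ℝ) ≃L[ℝ] EuclideanSpace ℂ (Fin g))} {S : Set Y} {nb b : ℕ}
    {QB : (Fin nb → ℝ) → (Fin nb → ℝ) → ℝ} {ι' : Type} {s : ι' → ι} {U' : ι' → Set Y}
    {ϖ : ι' → Y → ((Fin nb → ℝ) ≃L[ℝ] EuclideanSpace ℂ (Fin b))}
    {j : ι' → Y → EuclideanSpace ℂ (Fin b) →L[ℂ] EuclideanSpace ℂ (Fin g)}
    {ℓ : ι' → Y → EuclideanSpace ℂ (Fin g) →L[ℂ] EuclideanSpace ℂ (Fin b)}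
    (hI : ∀ a, ImL (L a)) (H : LinD L D S QB s U' ϖ j ℓ) :
    ∃ u : ι' → Z → (Z → EuclideanSpace ℂ (Fin g)) → EuclideanSpace ℂ (Fin b) → Z,
      IsOrbM (Cm (p + d)) (Cm p) d (CTame C.u C.w) f S (Qf B) QB U'
        (fun a => (L (s a)).π (D (s a))) ϖ j ℓ
        (fun a x β => f x ∈ U' a ∧ (L (s a)).IsLift x β) u := by
  choose T₁ act hA hmem using fun a => exists_flow_of (L (s a)) (hI (s a)) (H.sub a)
    (H.per.isOpen a) (H.jhol a) (H.tan a)
  have hJ : ∀ a, ∀ y ∈ U' a, ∀ v, j a ((L (s a)).χ.symm ((L (s a)).χ y)) v = j a y v := by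
    intro a y hy v
    rw [(L (s a)).left_inv (H.sub a hy)]
  refine ⟨fun a x β v => uL (L (s a)) (act a) x β v, ?_⟩
  exact
    { toIsPeriodFamily := H.per
      famb := H.famb
      lj := H.lj
      jhol := H.jhol
      lhol := H.lhol
      norm := H.norm
      rel := H.rel
      coord := by
        intro x hx
        obtain ⟨a, ha⟩ := (H.per.cover (f x)).1 hx
        exact DLocC.coord (L := L (s a)) hf (H.sub a ha)
      mem := fun a x β h => h.1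
      lift := by
        intro a x hx
        obtain ⟨β, hβ⟩ := DLocC.exists_isLift (L := L (s a)) (H.sub a hx)
        exact ⟨β, hx, hβ⟩
      near := by
        intro a x β h
        have h1 : ∀ᶠ z in 𝓝 x, f z ∈ U' a :=
          hf.continuous.continuousAt.eventually ((H.per.isOpen a).mem_nhds h.1)
        filter_upwards [h1, DLocC.IsLift.near hf h.2] with z h2 h3
        exact ⟨h2, h3⟩
      liftHol := fun a x β h => DLocC.IsLift.hol hf h.2
      imm := fun a x β h ξ h1 h2 => imm (hI (s a)) hf h.2 ξ h1 h2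
      full := fun a x β h l hl => full h.2 l hl
      uhol := fun a x β h v => (hA a).uhol I hd hn hf hw (D (s a)) h.2 (hmem a _ h.1) v
      fib := fun a x β h v => (hA a).fib I hd hn hf hw (D (s a)) h.2 v
      zero := fun a x β h => (hA a).uzero I hd hn hf hw (D (s a)) h.2 (hmem a _ h.1)
      per := by
        intro a x β h v k
        obtain ⟨κ, h1, h2⟩ := H.kper a _ h.1 k
        refine (hA a).uper I hd hn hf hw (D (s a)) h.2 (hmem a _ h.1) h1 ?_ v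
        rw [hJ a _ h.1]
        exact h2
      trans := by
        intro a x β h v
        obtain ⟨β', h1, h2, h3⟩ := (hA a).utrans I hd hn hf hw (D (s a)) h.2 (hmem a _ h.1) v
        refine ⟨β', ⟨?_, h1⟩, h2, ?_⟩
        · rw [(hA a).fib I hd hn hf hw (D (s a)) h.2 v]
          exact h.1
        · have h4 : ∀ᶠ z : Z × EuclideanSpace ℂ (Fin b) in 𝓝 (x, v), f z.1 ∈ U' a := by
            have h5 : ContinuousAt (fun z : Z × EuclideanSpace ℂ (Fin b) => f z.1) (x, v) :=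
              (hf.continuous.comp continuous_fst).continuousAt
            exact h5.eventually ((H.per.isOpen a).mem_nhds h.1)
          filter_upwards [h3, h4] with z h6 h7
          rw [h6, hJ a _ h7]
      change := by
        intro a a' x β β' h h'
        obtain ⟨τ, ρ, G, c, hc, hnear⟩ := (hA a).uchange I hd hn hf hw (hA a') (D (s a))
          (D (s a')) h.2 h'.2 (hmem a _ h.1) (hmem a' _ h'.1)
        obtain ⟨Gb, h1, h2, h3⟩ := H.change a a' (f x) ⟨h.1, h'.1⟩ τ ρ G c hc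
        refine ⟨G, c, Gb, hc.per, h1, h2, h3, hnear Gb fun v => ?_⟩
        rw [hJ a _ h.1, hJ a' _ h'.1]
        exact h2 v
      bound := by
        intro r K hr hK
        obtain ⟨A, hAA⟩ := orb_bound (f := f) (C := C) (m := m) (B := B) (b := b) hBC I hw hd
          hn hr hK
        refine ⟨A, fun a q v₀ hq hT hy => ?_⟩
        obtain ⟨h, k1, k2, k3, β, e, k4, k5, k6⟩ := hAA (L (s a)) (T₁ a) _ (act a) (hA a)
          (D (s a)) q v₀ hq hT (H.sub a hy) (hmem a _ hy)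
        refine ⟨h, k1, k2, fun v hv hinj x => ?_, β, ⟨hy, k4.isLift⟩, k5, fun c c1 c2 c3 v c4 => ?_⟩
        · obtain ⟨ξ, hξ⟩ := k3 v hv hinj x
          rw [hJ a _ hy] at hξ
          exact ⟨ξ, hξ⟩
        · rw [k6 c c1 c2 c3 v fun s' hs' => by rw [hJ a _ hy]; exact c4 s' hs']
          exact ((hA a).uL_eq I hd hn hf hw (D (s a)) k4 (hmem a _ hy) v).symm }

end Vale.Agent.P281.H303.UC
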