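import Vale.Agent.P281.H152.UC.OrbAct

/-!
# P281, project T-UD (helper303): the family of tori `u`, fields of `IsOrbM`
-/

open Set Filter Metric MeasureTheory Vale.Agent.P281 Vale.Agent.P281.H713 Vale.Agent.P272.K
open scoped Topology ContDiff Manifold ComplexConjugate NNReal

set_option linter.unusedSectionVars false

noncomputable section

namespace Vale.Agent.P281.H303.UC

open Vale.Agent.P281.H64 (Mark Qf functional_eq)
open Vale.Agent.P281.H64.TK Vale.Agent.P281.H603.K Vale.Agent.P281.H864.K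
open Vale.Agent.P281.H603.TE Vale.Agent.P281.H603.C
open Vale.Agent.P281.H303.UD (ImmF)
open Vale.Agent.P281.H64.TU (TameIn KTame TameBoundStmt NormStmt)
open Vale.Agent.P281.H349.O (Tan lift_unique)

attribute [local instance] ccs

variable {p d : ℕ} {Z Y : Type} [TopologicalSpace Z] [T2Space Z] [ChartedSpace (Cm (p + d)) Z]
  [IsManifold 𝓘(ℂ, Cm (p + d)) ω Z] [TopologicalSpace Y] [T2Space Y] [ChartedSpace (Cm p) Y]
  [IsManifold 𝓘(ℂ, Cm p) ω Y] {f : Z → Y} {C : Ctx (p := p) (d := d) f} {m n g b : ℕ}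
  {B : Matrix (Fin n) (Fin n) ℝ}

/-- sheets of `𝓕` and of the coverings -/
theorem sheet (L : DLocC C m B g) (γ : L.Γ) (i : Fin L.𝓕.N) :
    ∃ (κ : core L.Γ m) (j : Fin (fsub L.𝓕 (core L.Γ m)).N),
      ∀ t z, γ • L.𝓕.σ i t z = κ • (fsub L.𝓕 (core L.Γ m)).σ j t z := by
  obtain ⟨κ, c, rfl⟩ := exists_rep (core L.Γ m) γ
  refine ⟨κ, (idx (core L.Γ m) L.𝓕.N).symm (i, c), fun t z => ?_⟩
  rw [fsub_sigma', mul_smul]
  rfl

/-- a linear map which is the identity on the fibre is the identity -/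
theorem eq_id_of_near {L : DLocC C m B g} {x : Z}
    {β : Z → EuclideanSpace ℂ (Fin g)} (hβ : L.IsLift x β)
    {G : EuclideanSpace ℂ (Fin g) ≃L[ℂ] EuclideanSpace ℂ (Fin g)} {c : EuclideanSpace ℂ (Fin g)}
    (h : ∀ᶠ z in 𝓝 x, f z = f x → β z = G (β z) + c) (v : EuclideanSpace ℂ (Fin g)) : G v = v := by
  have h1 : ∀ l : EuclideanSpace ℂ (Fin g) →L[ℂ] ℂ, l (G v) = l v := by
    intro l
    have h2 : l.comp (G : EuclideanSpace ℂ (Fin g) →L[ℂ] EuclideanSpace ℂ (Fin g)) - l = 0 := by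
      refine full hβ _ ?_
      have h0 := h.self_of_nhds rfl
      filter_upwards [h] with z hz hfz
      have h3 : l (β z) = l (G (β z)) + l c := by
        rw [← map_add, ← hz hfz]
      have h4 : l (β x) = l (G (β x)) + l c := by
        rw [← map_add, ← h0]
      show l (G (β z)) - l (β z) = l (G (β x)) - l (β x)
      linear_combination h4 - h3
    have h3 := DFunLike.congr_fun h2 v
    exact sub_eq_zero.1 h3
  ext i
  exact h1 (EuclideanSpace.proj i)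

/-- the coordinates of the sheets are coordinates of the fibres -/
theorem co_inj {L : DLocC C m B g}
    (hf : ContMDiff 𝓘(ℂ, Cm (p + d)) 𝓘(ℂ, Cm p) ω f) {x : Z} (hx : f x ∈ L.U) {i : Fin L.𝓕.N}
    {ζ : Z → Cm d} (hζ : L.IsCo x i ζ) (ξ : Cm (p + d))
    (hξ : mfderiv 𝓘(ℂ, Cm (p + d)) 𝓘(ℂ, Cm p) f x ξ = 0)
    (hξ' : mfderiv 𝓘(ℂ, Cm (p + d)) 𝓘(ℂ, Cm d) ζ x ξ = 0) : ξ = 0 := by
  obtain ⟨h2, h3, h4⟩ := hζ
  set Φ : Cm p × Cm d → Z := fun r => L.q r.1 (L.𝓕.σ i r.1 r.2) with hΦ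
  have hΦd : MDifferentiableAt 𝓘(ℂ, Cm p × Cm d) 𝓘(ℂ, Cm (p + d)) Φ (L.χ (f x), ζ x) :=
    (L.model.hol i _ (L.hT' hx.2) _ h3).mdifferentiableAt (by simp)
  have h7 : MDifferentiableAt 𝓘(ℂ, Cm (p + d)) 𝓘(ℂ, Cm p) (fun x' => L.χ (f x')) x :=
    (ContMDiffAt.comp x (g := L.χ) (f := f) (L.contMDiffAt_χ hx) (hf x)).mdifferentiableAt
      (by simp)
  have h7' : MDifferentiableAt 𝓘(ℂ, Cm (p + d)) 𝓘(ℂ, Cm d) ζ x := h2.mdifferentiableAt (by simp)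
  have h8 : mfderiv 𝓘(ℂ, Cm (p + d)) 𝓘(ℂ, Cm p) (fun x' => L.χ (f x')) x ξ = 0 := by
    have h9 := mfderiv_comp_apply x (g := L.χ) (f := f)
      ((L.contMDiffAt_χ hx).mdifferentiableAt (by simp)) ((hf x).mdifferentiableAt (by simp)) ξ
    have h10 : (L.χ : Y → Cm p) ∘ f = fun x' => L.χ (f x') := rfl
    rw [h10] at h9
    rw [h9, hξ]
    exact map_zero _
  have hP : MDifferentiableAt 𝓘(ℂ, Cm (p + d)) 𝓘(ℂ, Cm p × Cm d) (fun x' => (L.χ (f x'), ζ x')) x := by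
    rw [modelWithCornersSelf_prod, ← chartedSpaceSelf_prod]
    exact h7.prodMk h7'
  have hP0 : mfderiv 𝓘(ℂ, Cm (p + d)) 𝓘(ℂ, Cm p × Cm d) (fun x' => (L.χ (f x'), ζ x')) x ξ = 0 := by
    have h11 : mfderiv 𝓘(ℂ, Cm (p + d)) (𝓘(ℂ, Cm p).prod 𝓘(ℂ, Cm d)) (fun x' => (L.χ (f x'), ζ x')) x =
      (mfderiv 𝓘(ℂ, Cm (p + d)) 𝓘(ℂ, Cm p) (fun x' => L.χ (f x')) x).prod
        (mfderiv 𝓘(ℂ, Cm (p + d)) 𝓘(ℂ, Cm d) ζ x) := mfderiv_prodMk h7 h7'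
    have h12 : mfderiv 𝓘(ℂ, Cm (p + d)) 𝓘(ℂ, Cm p × Cm d) (fun x' => (L.χ (f x'), ζ x')) x =
        (mfderiv 𝓘(ℂ, Cm (p + d)) 𝓘(ℂ, Cm p) (fun x' => L.χ (f x')) x).prod
        (mfderiv 𝓘(ℂ, Cm (p + d)) 𝓘(ℂ, Cm d) ζ x) := by
      rw [← h11, modelWithCornersSelf_prod, ← chartedSpaceSelf_prod]
    rw [h12]
    exact Prod.ext h8 hξ'
  have h14 := mfderiv_comp_apply x (g := Φ) (f := fun x' => (L.χ (f x'), ζ x')) hΦd hP ξ
  rw [hP0] at h14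
  have h15 : (Φ ∘ fun x' => (L.χ (f x'), ζ x')) =ᶠ[𝓝 x] id := by
    filter_upwards [h4] with x' a
    exact a
  rw [h15.mfderiv_eq, mfderiv_id] at h14
  exact h14.trans (map_zero _)

/-- `F` in the translates of the sheets -/
theorem FL_hol {L : DLocC C m B g} (γ : L.Γ) (i : Fin L.𝓕.N) {t : Cm p}
    (ht : t ∈ L.T') {z : Cm d} (hz : z ∈ ball (0 : Cm d) 3) :
    AnalyticAt ℂ (fun q : Cm p × Cm d => FL L q.1 (γ • L.𝓕.σ i q.1 q.2)) (t, z) := by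
  have h6 : ContDiffAt ℂ ω (fun r : Cm p × Cm d => L.F r.1 (γ • L.𝓕.σ i r.1 r.2)) (t, z) := by
    rw [contDiffAt_pi]
    intro j
    exact (DLocC.holF' γ i ht hz j).contDiffAt
  exact ((PiLp.continuousLinearEquiv 2 ℂ (fun _ : Fin g => ℂ)).symm.contDiff.contDiffAt.comp _
    h6).analyticAt

theorem cL_hol (L : DLocC C m B g) (κ : core L.Γ m) {t : Cm p}
    (ht : t ∈ L.T') : AnalyticAt ℂ (fun s => cL L s κ) t := by
  have h6 : ContDiffAt ℂ ω (fun s => L.c s κ) t := by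
    rw [contDiffAt_pi]
    intro j
    exact (L.holc κ j t ht).contDiffAt
  exact ((PiLp.continuousLinearEquiv 2 ℂ (fun _ : Fin g => ℂ)).symm.contDiff.contDiffAt.comp _
    h6).analyticAt

/-- immersive on all the translates of the sheets -/
theorem FL_inj {L : DLocC C m B g} (hI : ImL L) (γ : L.Γ) (i : Fin L.𝓕.N)
    {t : Cm p} (ht : t ∈ L.T') {z : Cm d} (hz : z ∈ ball (0 : Cm d) 3) {ξ : Cm d}
    (h : fderiv ℂ (fun q : Cm p × Cm d => FL L q.1 (γ • L.𝓕.σ i q.1 q.2)) (t, z) (0, ξ) = 0) :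
    ξ = 0 := by
  obtain ⟨κ, j, hs⟩ := sheet L γ i
  refine hI j t ht z hz ξ ?_
  have h1 : HL L j =ᶠ[𝓝 (t, z)]
      fun q : Cm p × Cm d => FL L q.1 (γ • L.𝓕.σ i q.1 q.2) - cL L q.1 κ := by
    have h3 : ∀ᶠ q : Cm p × Cm d in 𝓝 (t, z), q.1 ∈ L.T' :=
      continuous_fst.continuousAt.eventually (L.isOpen'.mem_nhds ht)
    filter_upwards [h3] with q hq
    rw [hs, FL_add L hq, add_sub_cancel_right]
    rfl
  have h2 : AnalyticAt ℂ (fun q : Cm p × Cm d => cL L q.1 κ) (t, z) :=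
    AnalyticAt.fun_comp (g := fun s => cL L s κ) (f := fun q : Cm p × Cm d => q.1) (cL_hol L κ ht)
      analyticAt_fst
  have h4 : fderiv ℂ (fun q : Cm p × Cm d => cL L q.1 κ) (t, z) (0, ξ) = 0 := by
    have h5 : HasFDerivAt (fun q : Cm p × Cm d => cL L q.1 κ)
        ((fderiv ℂ (fun s => cL L s κ) t).comp (ContinuousLinearMap.fst ℂ (Cm p) (Cm d))) (t, z) :=
      HasFDerivAt.comp (t, z) (g := fun s => cL L s κ) (f := fun q : Cm p × Cm d => q.1)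
        (cL_hol L κ ht).differentiableAt.hasFDerivAt hasFDerivAt_fst
    rw [h5.fderiv]
    show fderiv ℂ (fun s => cL L s κ) t 0 = 0
    exact map_zero _
  rw [h1.fderiv_eq, fderiv_fun_sub (FL_hol γ i ht hz).differentiableAt h2.differentiableAt,
    _root_.sub_apply, h, h4, sub_zero]

/-- **`imm`** -/
theorem imm {L : DLocC C m B g} (hI : ImL L)
    (hf : ContMDiff 𝓘(ℂ, Cm (p + d)) 𝓘(ℂ, Cm p) ω f) {x : Z}
    {β : Z → EuclideanSpace ℂ (Fin g)} (hβ : L.IsLift x β) (ξ : Cm (p + d))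
    (hξ : mfderiv 𝓘(ℂ, Cm (p + d)) 𝓘(ℂ, Cm p) f x ξ = 0)
    (hξ' : mfderiv 𝓘(ℂ, Cm (p + d)) 𝓘(ℂ, EuclideanSpace ℂ (Fin g)) β x ξ = 0) : ξ = 0 := by
  obtain ⟨hx, γ, i, ζ, hζ, h5⟩ := hβ
  refine co_inj hf hx hζ ξ hξ ?_
  set Φ : Cm p × Cm d → EuclideanSpace ℂ (Fin g) :=
    fun q => FL L q.1 (γ • L.𝓕.σ i q.1 q.2) with hΦ
  have hΦd : MDifferentiableAt 𝓘(ℂ, Cm p × Cm d) 𝓘(ℂ, EuclideanSpace ℂ (Fin g)) Φ
      (L.χ (f x), ζ x) := (FL_hol γ i hx.2 hζ.2.1).differentiableAt.mdifferentiableAt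
  have h7 : MDifferentiableAt 𝓘(ℂ, Cm (p + d)) 𝓘(ℂ, Cm p) (fun x' => L.χ (f x')) x :=
    (ContMDiffAt.comp x (g := L.χ) (f := f) (L.contMDiffAt_χ hx) (hf x)).mdifferentiableAt
      (by simp)
  have h7' : MDifferentiableAt 𝓘(ℂ, Cm (p + d)) 𝓘(ℂ, Cm d) ζ x :=
    hζ.1.mdifferentiableAt (by simp)
  have h8 : mfderiv 𝓘(ℂ, Cm (p + d)) 𝓘(ℂ, Cm p) (fun x' => L.χ (f x')) x ξ = 0 := by
    have h9 := mfderiv_comp_apply x (g := L.χ) (f := f)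
      ((L.contMDiffAt_χ hx).mdifferentiableAt (by simp)) ((hf x).mdifferentiableAt (by simp)) ξ
    have h10 : (L.χ : Y → Cm p) ∘ f = fun x' => L.χ (f x') := rfl
    rw [h10] at h9
    rw [h9, hξ]
    exact map_zero _
  have hP : MDifferentiableAt 𝓘(ℂ, Cm (p + d)) 𝓘(ℂ, Cm p × Cm d) (fun x' => (L.χ (f x'), ζ x')) x := by
    rw [modelWithCornersSelf_prod, ← chartedSpaceSelf_prod]
    exact h7.prodMk h7'
  set η : Cm d := mfderiv 𝓘(ℂ, Cm (p + d)) 𝓘(ℂ, Cm d) ζ x ξ with hη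
  have hP0 : mfderiv 𝓘(ℂ, Cm (p + d)) 𝓘(ℂ, Cm p × Cm d) (fun x' => (L.χ (f x'), ζ x')) x ξ =
      ((0 : Cm p), η) := by
    have h11 : mfderiv 𝓘(ℂ, Cm (p + d)) (𝓘(ℂ, Cm p).prod 𝓘(ℂ, Cm d)) (fun x' => (L.χ (f x'), ζ x')) x =
      (mfderiv 𝓘(ℂ, Cm (p + d)) 𝓘(ℂ, Cm p) (fun x' => L.χ (f x')) x).prod
        (mfderiv 𝓘(ℂ, Cm (p + d)) 𝓘(ℂ, Cm d) ζ x) := mfderiv_prodMk h7 h7'
    have h12 : mfderiv 𝓘(ℂ, Cm (p + d)) 𝓘(ℂ, Cm p × Cm d) (fun x' => (L.χ (f x'), ζ x')) x =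
        (mfderiv 𝓘(ℂ, Cm (p + d)) 𝓘(ℂ, Cm p) (fun x' => L.χ (f x')) x).prod
        (mfderiv 𝓘(ℂ, Cm (p + d)) 𝓘(ℂ, Cm d) ζ x) := by
      rw [← h11, modelWithCornersSelf_prod, ← chartedSpaceSelf_prod]
    rw [h12]
    exact Prod.ext h8 rfl
  have h14 := mfderiv_comp_apply x (g := Φ) (f := fun x' => (L.χ (f x'), ζ x')) hΦd hP ξ
  rw [hP0] at h14
  have h15 : (Φ ∘ fun x' => (L.χ (f x'), ζ x')) =ᶠ[𝓝 x] β := by
    filter_upwards [h5] with x' a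
    exact a.symm
  rw [h15.mfderiv_eq] at h14
  have h16 : fderiv ℂ Φ (L.χ (f x), ζ x) ((0 : Cm p), η) =
      mfderiv 𝓘(ℂ, Cm p × Cm d) 𝓘(ℂ, EuclideanSpace ℂ (Fin g)) Φ (L.χ (f x), ζ x)
      ((0 : Cm p), η) := by
    rw [mfderiv_eq_fderiv]
    rfl
  have h17 : fderiv ℂ Φ (L.χ (f x), ζ x) ((0 : Cm p), η) = 0 := (h16.trans h14.symm).trans hξ'
  exact FL_inj hI γ i hx.2 hζ.2.1 h17

end Vale.Agent.P281.H303.UC
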